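import Vale.Agent.P092.H407.LemS

/-!
P092 (helper179), team D, steps (5) and (6) of the real case as three by three algebra.

`e`, `f`, `n` are rank one families (`Rk`); `e` and `n` commute and are orthogonal (incidence);
`m` is an element with `∑ b, n s b * m * f b d = 0`. Then
`n i j * (m - ∑ e k l * m * f k l) = W2 e f i j m`, and the right side does not contain `n`.
-/

set_option linter.all false

open scoped BigOperators
open ContinuousLinearMap

namespace Vale.Agent.P092.H179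

open Vale.Agent.P092.H407

section Ring

variable {A : Type*} [Ring A]

/-- `W2 e f i j X = ∑ ε_{iab} ε_{jcd} e_{ac} X f_{bd}` -/
def W2 (e f : Fin 3 → Fin 3 → A) (i j : Fin 3) (X : A) : A :=
  ∑ a, ∑ b, ∑ c, ∑ d, (eps i a b * eps j c d) • (e a c * X * f b d)

/-- `Ph2 e f X = ∑ e_{kl} X f_{kl}` -/
def Ph2 (e f : Fin 3 → Fin 3 → A) (X : A) : A := ∑ k, ∑ l, e k l * X * f k l

variable {e f n : Fin 3 → Fin 3 → A}

lemma W2_swap₁ (he : Rk e) (h0 : ∀ i k, ∑ j, e i j * n j k = 0) (hn : Rk n) (m : A)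
    (hm : ∀ s d, ∑ b, n s b * m * f b d = 0)
    (p q r s : Fin 3) : W2 e f p q (n r s * m) = W2 e f r q (n p s * m) := by
  have key : W2 e f p q (n r s * m) - W2 e f r q (n p s * m)
      = ∑ a, ∑ b, ∑ c, ∑ d, ∑ x : Fin 3, ((eps p a b * (if r = x then 1 else 0)
          - eps r a b * (if p = x then 1 else 0)) * eps q c d) • (e a c * (n x s * m) * f b d) := by
    simp only [W2, ← Finset.sum_sub_distrib]
    refine Finset.sum_congr rfl fun a _ => Finset.sum_congr rfl fun b _ =>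
      Finset.sum_congr rfl fun c _ => Finset.sum_congr rfl fun d _ => ?_
    simp only [sub_mul, sub_smul, Finset.sum_sub_distrib]
    simp [mul_assoc]
  have z1 : ∀ c b d : Fin 3, ∀ x : A, ∑ a, e a c * (n a s * m) * x = 0 := by
    intro c b d x
    rw [← Finset.sum_mul]
    have : ∑ a, e a c * (n a s * m) = (∑ a, e c a * n a s) * m := by
      rw [Finset.sum_mul]
      exact Finset.sum_congr rfl fun a _ => by rw [he.symm a c, mul_assoc]
    rw [this, h0, zero_mul, zero_mul]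
  have z2 : ∀ a c d : Fin 3, ∑ b, e a c * (n b s * m) * f b d = 0 := by
    intro a c d
    have : ∀ b, e a c * (n b s * m) * f b d = e a c * (n s b * m * f b d) := fun b => by
      rw [hn.symm b s]; simp only [mul_assoc]
    rw [Finset.sum_congr rfl fun b _ => this b, ← Finset.mul_sum, hm, mul_zero]
  rw [← sub_eq_zero, key]
  simp only [eps_schouten]
  simp only [add_mul, add_smul, neg_mul, neg_smul, Finset.sum_add_distrib, Finset.sum_neg_distrib]
  have t1 : ∑ a, ∑ b, ∑ c, ∑ d, ∑ x : Fin 3, (eps b r p * (if a = x then 1 else 0) * eps q c d) •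
      (e a c * (n x s * m) * f b d) = 0 := by
    have : ∀ a b c d : Fin 3, ∑ x : Fin 3, (eps b r p * (if a = x then 1 else 0) * eps q c d) •
      (e a c * (n x s * m) * f b d) = (eps b r p * eps q c d) • (e a c * (n a s * m) * f b d) := by
      intro a b c d
      simp [mul_assoc]
    simp only [this]
    rw [Finset.sum_comm]
    refine Finset.sum_eq_zero fun b _ => ?_
    rw [Finset.sum_comm]
    refine Finset.sum_eq_zero fun c _ => ?_
    rw [Finset.sum_comm]
    refine Finset.sum_eq_zero fun d _ => ?_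
    rw [← Finset.smul_sum, z1 c b d, smul_zero]
  have t2 : ∑ a, ∑ b, ∑ c, ∑ d, ∑ x : Fin 3, (eps r p a * (if b = x then 1 else 0) * eps q c d) •
      (e a c * (n x s * m) * f b d) = 0 := by
    have : ∀ a b c d : Fin 3, ∑ x : Fin 3, (eps r p a * (if b = x then 1 else 0) * eps q c d) •
      (e a c * (n x s * m) * f b d) = (eps r p a * eps q c d) • (e a c * (n b s * m) * f b d) := by
      intro a b c d
      simp [mul_assoc]
    simp only [this]
    refine Finset.sum_eq_zero fun a _ => ?_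
    rw [Finset.sum_comm]
    refine Finset.sum_eq_zero fun c _ => ?_
    rw [Finset.sum_comm]
    refine Finset.sum_eq_zero fun d _ => ?_
    rw [← Finset.smul_sum, z2 a c d, smul_zero]
  rw [t1, t2]
  simp

lemma W2_symm (he : Rk e) (hf : Rk f) (p q : Fin 3) (X : A) : W2 e f p q X = W2 e f q p X := by
  have : ∀ a b : Fin 3, ∑ c, ∑ d, (eps p a b * eps q c d) • (e a c * X * f b d)
      = ∑ c, ∑ d, (eps q c d * eps p a b) • (e c a * X * f d b) := fun a b =>
    Finset.sum_congr rfl fun c _ => Finset.sum_congr rfl fun d _ => by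
      rw [mul_comm, he.symm a c, hf.symm b d]
  simp only [W2, this]
  have h1 : ∀ a : Fin 3, ∑ b, ∑ c, ∑ d, (eps q c d * eps p a b) • (e c a * X * f d b)
      = ∑ c, ∑ d, ∑ b, (eps q c d * eps p a b) • (e c a * X * f d b) := fun a => by
    rw [Finset.sum_comm]
    exact Finset.sum_congr rfl fun c _ => Finset.sum_comm
  simp only [h1]
  rw [Finset.sum_comm]
  refine Finset.sum_congr rfl fun c _ => Finset.sum_comm

lemma W2_swap₂ (he : Rk e) (hf : Rk f) (hn : Rk n) (h0 : ∀ i k, ∑ j, e i j * n j k = 0) (m : A)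
    (hm : ∀ s d, ∑ b, n s b * m * f b d = 0)
    (p q r s : Fin 3) : W2 e f p q (n r s * m) = W2 e f p s (n r q * m) := by
  rw [W2_symm he hf, hn.symm r s, W2_swap₁ he h0 hn m hm, W2_symm he hf, hn.symm q r]

/-- `∑ W_pp = 1 - Ph` -/
lemma sum_W2 (he : Rk e) (hf : Rk f) (X : A) : ∑ p, W2 e f p p X = X - Ph2 e f X := by
  have h1 : ∑ p, W2 e f p p X = ∑ a, ∑ b, ∑ c, ∑ d, (∑ p, eps p a b * eps p c d) •
      (e a c * X * f b d) := by
    simp only [W2, Finset.sum_smul]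
    rw [Finset.sum_comm]
    refine Finset.sum_congr rfl fun a _ => ?_
    rw [Finset.sum_comm]
    refine Finset.sum_congr rfl fun b _ => ?_
    rw [Finset.sum_comm]
    refine Finset.sum_congr rfl fun c _ => ?_
    rw [Finset.sum_comm]
  rw [h1]
  simp only [eps_contr, sub_smul, Finset.sum_sub_distrib]
  have h2 : ∑ a, ∑ b, ∑ c, ∑ d, ((if a = c then 1 else 0) * (if b = d then 1 else 0) : ℤ) •
      (e a c * X * f b d) = X := by
    have : ∀ a b : Fin 3, ∑ c, ∑ d, ((if a = c then 1 else 0) * (if b = d then 1 else 0) : ℤ) •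
      (e a c * X * f b d) = e a a * X * f b b := by
      intro a b
      simp
    simp only [this, ← Finset.mul_sum, hf.tr, mul_one, ← Finset.sum_mul, he.tr, one_mul]
  have h3 : ∑ a, ∑ b, ∑ c, ∑ d, ((if a = d then 1 else 0) * (if b = c then 1 else 0) : ℤ) •
      (e a c * X * f b d) = Ph2 e f X := by
    have : ∀ a b : Fin 3, ∑ c, ∑ d, ((if a = d then 1 else 0) * (if b = c then 1 else 0) : ℤ) •
      (e a c * X * f b d) = e a b * X * f a b := by
      intro a b
      rw [hf.symm a b]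
      simp
    simp only [this, Ph2]
  rw [h2, h3]

/-- **[ID]** -/
lemma sub_Ph2 (he : Rk e) (hf : Rk f) (hn : Rk n) (h0 : ∀ i k, ∑ j, e i j * n j k = 0) (m : A)
    (hm : ∀ s d, ∑ b, n s b * m * f b d = 0) (i j : Fin 3) :
    n i j * m - Ph2 e f (n i j * m) = W2 e f i j m := by
  rw [← sum_W2 he hf]
  have h1 : ∀ p, W2 e f p p (n i j * m) = W2 e f i j (n p p * m) := fun p => by
    rw [W2_swap₁ he h0 hn m hm, W2_swap₂ he hf hn h0 m hm]
  simp only [h1]
  have h2 : ∑ p, W2 e f i j (n p p * m) = W2 e f i j (∑ p, n p p * m) := by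
    simp only [W2, Finset.mul_sum, Finset.sum_mul, Finset.smul_sum]
    rw [Finset.sum_comm]
    refine Finset.sum_congr rfl fun a _ => ?_
    rw [Finset.sum_comm]
    refine Finset.sum_congr rfl fun b _ => ?_
    rw [Finset.sum_comm]
    refine Finset.sum_congr rfl fun c _ => ?_
    rw [Finset.sum_comm]
  rw [h2, ← Finset.sum_mul, hn.tr, one_mul]

lemma mul_Ph2 (hc : ∀ i j k l, n i j * e k l = e k l * n i j) (i j : Fin 3) (m : A) :
    n i j * Ph2 e f m = Ph2 e f (n i j * m) := by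
  simp only [Ph2, Finset.mul_sum]
  refine Finset.sum_congr rfl fun k _ => Finset.sum_congr rfl fun l _ => ?_
  rw [← mul_assoc, ← mul_assoc, ← mul_assoc, hc]

/-- **[ID]**, second form: `n i j * (m - Ph2 m)` does not depend on `n`. -/
lemma mul_sub_Ph2 (he : Rk e) (hf : Rk f) (hn : Rk n) (h0 : ∀ i k, ∑ j, e i j * n j k = 0)
    (hc : ∀ i j k l, n i j * e k l = e k l * n i j) (m : A)
    (hm : ∀ s d, ∑ b, n s b * m * f b d = 0) (i j : Fin 3) :
    n i j * (m - Ph2 e f m) = W2 e f i j m := by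
  rw [mul_sub, mul_Ph2 hc, sub_Ph2 he hf hn h0 m hm]

lemma Ph2_sub (X Y : A) : Ph2 e f (X - Y) = Ph2 e f X - Ph2 e f Y := by
  simp only [Ph2, mul_sub, sub_mul, Finset.sum_sub_distrib]

lemma Ph2_self (X : A) : Ph2 e e X = Ph e X := rfl

lemma W2_self (i j : Fin 3) (X : A) : W2 e e i j X = W e i j X := rfl

end Ring

section Op

variable {H : Type*} [NormedAddCommGroup H] [InnerProductSpace ℂ H] [CompleteSpace H]

/-- `Ph2` as a linear map -/
noncomputable def PhL (e : Fin 3 → Fin 3 → (H →L[ℂ] H)) : (H →L[ℂ] H) →ₗ[ℂ] (H →L[ℂ] H) where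
  toFun X := Ph e X
  map_add' X Y := by simp only [Ph, mul_add, add_mul, Finset.sum_add_distrib]
  map_smul' c X := by
    simp only [Ph, mul_smul_comm, smul_mul_assoc, Finset.smul_sum, RingHom.id_apply]

lemma PhL_apply (e : Fin 3 → Fin 3 → (H →L[ℂ] H)) (X : H →L[ℂ] H) : PhL e X = Ph e X := rfl

/-- the operators `T` with `∑ b, n s b * T * e b d = 0` -/
def Sy (n e : Fin 3 → Fin 3 → (H →L[ℂ] H)) : Submodule ℂ (H →L[ℂ] H) where
  carrier := {T | ∀ s d, ∑ b, n s b * T * e b d = 0}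
  add_mem' := by
    intro X Y hX hY s d
    simp only [mul_add, add_mul, Finset.sum_add_distrib]
    rw [hX s d, hY s d, add_zero]
  zero_mem' := by
    intro s d
    simp
  smul_mem' := by
    intro c X hX s d
    simp only [mul_smul_comm, smul_mul_assoc, ← Finset.smul_sum]
    rw [hX s d, smul_zero]

variable {e n : Fin 3 → Fin 3 → (H →L[ℂ] H)}

lemma mem_Sy {T : H →L[ℂ] H} : T ∈ Sy n e ↔ ∀ s d, ∑ b, n s b * T * e b d = 0 := Iff.rfl

lemma Sy.left (hc : ∀ i j k l, n i j * e k l = e k l * n i j) {T : H →L[ℂ] H} (hT : T ∈ Sy n e)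
    (i j : Fin 3) : e i j * T ∈ Sy n e := by
  intro s d
  have : ∀ b, n s b * (e i j * T) * e b d = e i j * (n s b * T * e b d) := fun b => by
    rw [← mul_assoc, hc]
    simp only [mul_assoc]
  simp only [this, ← Finset.mul_sum]
  rw [hT s d, mul_zero]

lemma Sy.right (he : Rk e) {T : H →L[ℂ] H} (hT : T ∈ Sy n e)
    (i j : Fin 3) : T * e i j ∈ Sy n e := by
  intro s d
  have : ∀ b, n s b * (T * e i j) * e b d = n s b * T * e b d * e i j := fun b => by
    simp only [mul_assoc]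
    rw [he.comm i j b d]
  simp only [this, ← Finset.sum_mul]
  rw [hT s d, zero_mul]

lemma Sy.ph (he : Rk e) (hc : ∀ i j k l, n i j * e k l = e k l * n i j) {T : H →L[ℂ] H}
    (hT : T ∈ Sy n e) : Ph e T ∈ Sy n e := by
  rw [Ph]
  exact Submodule.sum_mem _ fun k _ => Submodule.sum_mem _ fun l _ =>
    Sy.right he (Sy.left hc hT k l) k l

lemma Sy.w (he : Rk e) (hc : ∀ i j k l, n i j * e k l = e k l * n i j) {T : H →L[ℂ] H}
    (hT : T ∈ Sy n e) (i j : Fin 3) : W e i j T ∈ Sy n e := by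
  rw [W]
  refine Submodule.sum_mem _ fun a _ => Submodule.sum_mem _ fun b _ => Submodule.sum_mem _
    fun c _ => Submodule.sum_mem _ fun d _ => ?_
  exact zsmul_mem (Sy.right he (Sy.left hc hT a c) b d) _

/-- `W` as a linear map in the last variable -/
lemma W_sub (i j : Fin 3) (X Y : H →L[ℂ] H) : W e i j (X - Y) = W e i j X - W e i j Y := by
  simp only [W, mul_sub, sub_mul, smul_sub, Finset.sum_sub_distrib]

section two

variable (M : Submodule ℂ (H →L[ℂ] H)) (hM : ∀ T ∈ M, Ph e T ∈ M)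

include hM in
lemma iter_mem {S : H →L[ℂ] H} (hS : S ∈ M) (N : ℕ) : (Ph e)^[N] S ∈ M := by
  induction N with
  | zero => exact hS
  | succ N ih =>
    rw [Function.iterate_succ_apply']
    exact hM _ ih

include hM in
lemma geo {S : H →L[ℂ] H} (hS : S ∈ M) (N : ℕ) :
    ∃ d ∈ M, d - Ph e d = S - (Ph e)^[N] S := by
  induction N with
  | zero => exact ⟨0, M.zero_mem, by rw [← PhL_apply, map_zero]; simp⟩
  | succ N ih =>
    obtain ⟨d, hd, h⟩ := ih
    refine ⟨d + (Ph e)^[N] S, M.add_mem hd (iter_mem M hM hS N), ?_⟩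
    rw [Function.iterate_succ_apply']
    have h2 : Ph e (d + (Ph e)^[N] S) = Ph e d + Ph e ((Ph e)^[N] S) := (PhL e).map_add _ _
    rw [h2]
    calc d + (Ph e)^[N] S - (Ph e d + Ph e ((Ph e)^[N] S))
        = (d - Ph e d) + (Ph e)^[N] S - Ph e ((Ph e)^[N] S) := by abel
      _ = _ := by rw [h]; abel

include hM in
lemma geo2 {S : H →L[ℂ] H} (hS : S ∈ M) (N : ℕ) :
    ∃ C ∈ M, (C - Ph e C) - Ph e (C - Ph e C) =
      (N : ℂ) • (S - Ph e S) - (S - (Ph e)^[N] S) := by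
  induction N with
  | zero => exact ⟨0, M.zero_mem, by simp [← PhL_apply]⟩
  | succ N ih =>
    obtain ⟨C, hC, h⟩ := ih
    obtain ⟨d, hd, h'⟩ := geo M hM hS N
    refine ⟨C + d, M.add_mem hC hd, ?_⟩
    have e1 : Ph e (C + d) = Ph e C + Ph e d := (PhL e).map_add _ _
    have e2 : C + d - Ph e (C + d) = (C - Ph e C) + (d - Ph e d) := by rw [e1]; abel
    have e3 : Ph e ((C - Ph e C) + (d - Ph e d)) = Ph e (C - Ph e C) + Ph e (d - Ph e d) :=
      (PhL e).map_add _ _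
    have e4 : Ph e (S - (Ph e)^[N] S) = Ph e S - Ph e ((Ph e)^[N] S) := (PhL e).map_sub _ _
    rw [e2, e3, h', Function.iterate_succ_apply', e4]
    calc (C - Ph e C) + (S - (Ph e)^[N] S) -
          (Ph e (C - Ph e C) + (Ph e S - Ph e ((Ph e)^[N] S)))
        = ((C - Ph e C) - Ph e (C - Ph e C)) + (S - (Ph e)^[N] S) -
          (Ph e S - Ph e ((Ph e)^[N] S)) := by abel
      _ = _ := by
        rw [h]
        push_cast
        rw [add_smul, one_smul]
        abel

end two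

/-- norm of the iterates -/
lemma norm_iter (he : Rk e) (hs : ∀ i j, adjoint (e i j) = e i j) (X : H →L[ℂ] H) (m : ℕ) :
    ‖(Ph e)^[m] X‖ ≤ ‖X‖ := by
  induction m with
  | zero => simp
  | succ m ih =>
    rw [Function.iterate_succ_apply']
    exact (norm_Ph he hs _).trans ih

/-- `(1 - Φ) M` -/
noncomputable def ZZ (e : Fin 3 → Fin 3 → (H →L[ℂ] H)) (M : Submodule ℂ (H →L[ℂ] H)) :
    Submodule ℂ (H →L[ℂ] H) := (M.map (LinearMap.id - PhL e)).topologicalClosure

lemma mem_map {M : Submodule ℂ (H →L[ℂ] H)} {S : H →L[ℂ] H} (hS : S ∈ M) :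
    S - Ph e S ∈ M.map (LinearMap.id - PhL e) := ⟨S, hS, rfl⟩

/-- approximation by second differences -/
lemma approx (he : Rk e) (hs : ∀ i j, adjoint (e i j) = e i j)
    (M : Submodule ℂ (H →L[ℂ] H)) (hM : ∀ T ∈ M, Ph e T ∈ M) {S : H →L[ℂ] H} (hS : S ∈ M)
    {ε : ℝ} (hε : 0 < ε) : ∃ C ∈ M,
      ‖(S - Ph e S) - ((C - Ph e C) - Ph e (C - Ph e C))‖ ≤ ε := by
  obtain ⟨N, hN⟩ := exists_nat_gt (2 * ‖S‖ / ε)
  have hN0 : (0 : ℝ) < N := lt_of_le_of_lt (by positivity) hN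
  have hN1 : (N : ℂ) ≠ 0 := by exact_mod_cast hN0.ne'
  obtain ⟨C, hC, h⟩ := geo2 M hM hS N
  refine ⟨(N : ℂ)⁻¹ • C, M.smul_mem _ hC, ?_⟩
  have e0 : ∀ X : H →L[ℂ] H, Ph e ((N : ℂ)⁻¹ • X) = (N : ℂ)⁻¹ • Ph e X := fun X =>
    (PhL e).map_smul _ _
  have e1 : ((N : ℂ)⁻¹ • C - Ph e ((N : ℂ)⁻¹ • C)) - Ph e ((N : ℂ)⁻¹ • C - Ph e ((N : ℂ)⁻¹ • C)) =
      (S - Ph e S) - (N : ℂ)⁻¹ • (S - (Ph e)^[N] S) := by
    rw [e0, ← smul_sub, e0, ← smul_sub, h, smul_sub, smul_smul, inv_mul_cancel₀ hN1, one_smul]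
  rw [e1, sub_sub_cancel, norm_smul, norm_inv, Complex.norm_natCast]
  have h2 : ‖S - (Ph e)^[N] S‖ ≤ 2 * ‖S‖ := by
    refine (norm_sub_le _ _).trans ?_
    have := norm_iter he hs S N
    linarith
  rw [inv_mul_le_iff₀ hN0]
  rw [div_lt_iff₀ hε] at hN
  linarith

variable {n₁ n₂ : Fin 3 → Fin 3 → (H →L[ℂ] H)}

/-- one left multiplication on the closed space -/
lemma step (he : Rk e) (hs : ∀ i j, adjoint (e i j) = e i j) (hn : Rk n)
    (h0 : ∀ i k, ∑ j, e i j * n j k = 0) (hc : ∀ i j k l, n i j * e k l = e k l * n i j)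
    (M : Submodule ℂ (H →L[ℂ] H)) (hM : ∀ T ∈ M, Ph e T ∈ M) (hW : ∀ T ∈ M, ∀ i j, W e i j T ∈ M)
    (hS : M ≤ Sy n e) (i j : Fin 3) {Z : H →L[ℂ] H} (hZ : Z ∈ ZZ e M) : n i j * Z ∈ ZZ e M := by
  have hcl : IsClosed {Z : H →L[ℂ] H | n i j * Z ∈ ZZ e M} := by
    have h1 : IsClosed ((ZZ e M : Submodule ℂ (H →L[ℂ] H)) : Set (H →L[ℂ] H)) :=
      Submodule.isClosed_topologicalClosure _
    exact h1.preimage (continuous_const.mul continuous_id)
  have hsub : ((M.map (LinearMap.id - PhL e) : Submodule ℂ (H →L[ℂ] H)) : Set (H →L[ℂ] H)) ⊆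
      {Z : H →L[ℂ] H | n i j * Z ∈ ZZ e M} := by
    rintro _ ⟨S, hSM, rfl⟩
    have hS' : S ∈ M := hSM
    change n i j * (S - Ph e S) ∈ closure ((M.map (LinearMap.id - PhL e) :
      Submodule ℂ (H →L[ℂ] H)) : Set (H →L[ℂ] H))
    rw [Metric.mem_closure_iff]
    intro ε hε
    obtain ⟨C, hC, h⟩ := approx he hs M hM hS' (ε := ε / (2 * (‖n i j‖ + 1))) (by positivity)
    have hY : C - Ph e C ∈ M := M.sub_mem hC (hM C hC)
    have h3 : n i j * ((C - Ph e C) - Ph e (C - Ph e C)) = W e i j C - Ph e (W e i j C) := by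
      have h4 := mul_sub_Ph2 he he hn h0 hc (C - Ph e C) (fun s d => hS hY s d) i j
      rw [Ph2_self, W2_self] at h4
      rw [h4, W_sub, Ph_W he]
    refine ⟨n i j * ((C - Ph e C) - Ph e (C - Ph e C)), ?_, ?_⟩
    · rw [h3]
      exact mem_map (hW C hC i j)
    · rw [dist_eq_norm, ← mul_sub]
      refine lt_of_le_of_lt (norm_mul_le _ _) ?_
      have h5 : ‖n i j‖ * ‖(S - Ph e S) - ((C - Ph e C) - Ph e (C - Ph e C))‖ ≤
          ‖n i j‖ * (ε / (2 * (‖n i j‖ + 1))) := mul_le_mul_of_nonneg_left h (norm_nonneg _)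
      refine lt_of_le_of_lt h5 ?_
      have h6 : 0 ≤ ‖n i j‖ := norm_nonneg _
      rw [mul_div_assoc', div_lt_iff₀ (by positivity)]
      nlinarith
  exact closure_minimal hsub hcl hZ

/-- the two left multiplications agree on the closed space -/
lemma agree (he : Rk e) (hn₁ : Rk n₁) (hn₂ : Rk n₂)
    (h1 : ∀ i k, ∑ j, e i j * n₁ j k = 0) (h2 : ∀ i k, ∑ j, e i j * n₂ j k = 0)
    (hc₁ : ∀ i j k l, n₁ i j * e k l = e k l * n₁ i j)
    (hc₂ : ∀ i j k l, n₂ i j * e k l = e k l * n₂ i j)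
    (M : Submodule ℂ (H →L[ℂ] H)) (hS₁ : M ≤ Sy n₁ e) (hS₂ : M ≤ Sy n₂ e)
    (i j : Fin 3) {Z : H →L[ℂ] H} (hZ : Z ∈ ZZ e M) : n₁ i j * Z = n₂ i j * Z := by
  have hcl : IsClosed {Z : H →L[ℂ] H | n₁ i j * Z = n₂ i j * Z} :=
    isClosed_eq (continuous_const.mul continuous_id) (continuous_const.mul continuous_id)
  have hsub : ((M.map (LinearMap.id - PhL e) : Submodule ℂ (H →L[ℂ] H)) : Set (H →L[ℂ] H)) ⊆
      {Z : H →L[ℂ] H | n₁ i j * Z = n₂ i j * Z} := by
    rintro _ ⟨S, hSM, rfl⟩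
    have hS' : S ∈ M := hSM
    change n₁ i j * (S - Ph e S) = n₂ i j * (S - Ph e S)
    have h4 := mul_sub_Ph2 he he hn₁ h1 hc₁ S (fun s d => hS₁ hS' s d) i j
    have h5 := mul_sub_Ph2 he he hn₂ h2 hc₂ S (fun s d => hS₂ hS' s d) i j
    rw [Ph2_self] at h4 h5
    rw [h4, h5]
  exact closure_minimal hsub hcl hZ

end Op

end Vale.Agent.P092.H179
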