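import Vale.Agent.P092.H179.Alg

/-!
P092 (helper179), team D, steps (5) and (6) of the real case in the letters of *-homomorphisms.

`cx i j = x_i x_j` (with `∑ x_i² = 1`) and `cy i j = y_i y_j` are the coordinate functions of the
space of points `X` and of the space of lines `Y`.
-/

set_option linter.all false

open scoped BigOperators
open ContinuousLinearMap

namespace Vale.Agent.P092.H179

open Vale.Agent.P092.H407

section Calc

variable {H : Type*} [NormedAddCommGroup H] [InnerProductSpace ℂ H] [CompleteSpace H]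
  {X Y : Type*} [TopologicalSpace X] [CompactSpace X] [TopologicalSpace Y] [CompactSpace Y]

/-- the coordinate functions generate -/
def Gen (cx : Fin 3 → Fin 3 → C(X, ℂ)) : Prop :=
  (Algebra.adjoin ℂ (Set.range fun p : Fin 3 × Fin 3 => cx p.1 p.2)).topologicalClosure = ⊤

/-- rank one coordinate functions -/
structure Crd (cx : Fin 3 → Fin 3 → C(X, ℂ)) : Prop where
  rk : Rk cx
  real : ∀ i j, star (cx i j) = cx i j
  gen : Gen cx

lemma Crd.map {cx : Fin 3 → Fin 3 → C(X, ℂ)} (h : Crd cx) (β : C(X, ℂ) →⋆ₐ[ℂ] (H →L[ℂ] H)) :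
    Rk fun i j => β (cx i j) where
  symm i j := by rw [h.rk.symm i j]
  rk i j k l := by rw [← map_mul, ← map_mul, h.rk.rk]
  tr := by rw [← map_sum, h.rk.tr, map_one]

lemma Crd.adj {cx : Fin 3 → Fin 3 → C(X, ℂ)} (h : Crd cx) (β : C(X, ℂ) →⋆ₐ[ℂ] (H →L[ℂ] H))
    (i j : Fin 3) : adjoint (β (cx i j)) = β (cx i j) := by
  rw [← star_eq_adjoint, ← map_star, h.real]

lemma cont (β : C(X, ℂ) →⋆ₐ[ℂ] (H →L[ℂ] H)) : Continuous β :=
  AddMonoidHomClass.continuous_of_bound β 1 fun a => by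
    rw [one_mul]
    exact NonUnitalStarAlgHom.norm_apply_le β a

/-- two closed conditions which agree on the generators -/
lemma Gen.ind {cx : Fin 3 → Fin 3 → C(X, ℂ)} (h : Gen cx) {P : C(X, ℂ) → Prop}
    (hcl : IsClosed {F | P F}) (h1 : ∀ c : ℂ, P (algebraMap ℂ C(X, ℂ) c))
    (h2 : ∀ i j, P (cx i j)) (h3 : ∀ F G, P F → P G → P (F + G))
    (h4 : ∀ F G, P F → P G → P (F * G)) (F : C(X, ℂ)) : P F := by
  have hF : F ∈ (Algebra.adjoin ℂ
      (Set.range fun p : Fin 3 × Fin 3 => cx p.1 p.2)).topologicalClosure := by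
    have : (Algebra.adjoin ℂ
      (Set.range fun p : Fin 3 × Fin 3 => cx p.1 p.2)).topologicalClosure = ⊤ := h
    rw [this]; trivial
  have hsub : ((Algebra.adjoin ℂ (Set.range fun p : Fin 3 × Fin 3 => cx p.1 p.2) :
      Subalgebra ℂ C(X, ℂ)) : Set C(X, ℂ)) ⊆ {F | P F} := by
    intro G hG
    induction hG using Algebra.adjoin_induction with
    | mem x hx =>
      obtain ⟨p, rfl⟩ := hx
      exact h2 p.1 p.2
    | algebraMap c => exact h1 c
    | add x y _ _ hx hy => exact h3 x y hx hy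
    | mul x y _ _ hx hy => exact h4 x y hx hy
  exact closure_minimal hsub hcl hF

/-- commutation passes from the generators to the whole algebra -/
lemma Gen.comm {cx : Fin 3 → Fin 3 → C(X, ℂ)} (h : Gen cx) (β : C(X, ℂ) →⋆ₐ[ℂ] (H →L[ℂ] H))
    (T : H →L[ℂ] H) (hT : ∀ i j, β (cx i j) * T = T * β (cx i j)) (F : C(X, ℂ)) :
    β F * T = T * β F := by
  refine h.ind (P := fun F => β F * T = T * β F) ?_ ?_ hT ?_ ?_ F
  · exact isClosed_eq ((cont β).mul continuous_const) (continuous_const.mul (cont β))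
  · intro c
    rw [AlgHomClass.commutes, Algebra.commutes]
  · intro F G hF hG
    rw [map_add, add_mul, mul_add, hF, hG]
  · intro F G hF hG
    rw [map_mul, mul_assoc, hG, ← mul_assoc, hF, mul_assoc]

/-- positivity: an element fixed by `Ph e` together with `T*` and `T* T` commutes with `e`. -/
theorem comm_of_fix {e : Fin 3 → Fin 3 → (H →L[ℂ] H)} (he : Rk e)
    (hs : ∀ i j, adjoint (e i j) = e i j) {T : H →L[ℂ] H} (f1 : Ph e T = T)
    (f2 : Ph e (adjoint T) = adjoint T) (f3 : Ph e (adjoint T * T) = adjoint T * T)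
    (k l : Fin 3) : e k l * T = T * e k l := by
  have hsum : ∑ k, ∑ l, (adjoint T * e k l - e k l * adjoint T) * (e k l * T - T * e k l) = 0 := by
    have hexp : ∀ k l, (adjoint T * e k l - e k l * adjoint T) * (e k l * T - T * e k l)
        = adjoint T * (e k l * e k l) * T - adjoint T * (e k l * T * e k l)
          - (e k l * adjoint T * e k l) * T + e k l * (adjoint T * T) * e k l := by
      intro k l; noncomm_ring
    simp only [hexp, Finset.sum_add_distrib, Finset.sum_sub_distrib]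
    have a1 : ∑ k, ∑ l, adjoint T * (e k l * e k l) * T = adjoint T * T := by
      simp only [← Finset.sum_mul, ← Finset.mul_sum, he.sq, mul_one]
    have a2 : ∑ k, ∑ l, adjoint T * (e k l * T * e k l) = adjoint T * T := by
      simp only [← Finset.mul_sum]
      rw [show ∑ k, ∑ l, e k l * T * e k l = Ph e T from rfl, f1]
    have a3 : ∑ k, ∑ l, (e k l * adjoint T * e k l) * T = adjoint T * T := by
      simp only [← Finset.sum_mul]
      rw [show ∑ k, ∑ l, e k l * adjoint T * e k l = Ph e (adjoint T) from rfl, f2]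
    have a4 : ∑ k, ∑ l, e k l * (adjoint T * T) * e k l = adjoint T * T := f3
    rw [a1, a2, a3, a4]
    abel
  have hpos : ∀ ξ : H, ∑ k, ∑ l, ‖(e k l * T - T * e k l) ξ‖ ^ 2 = 0 := by
    intro ξ
    have h1 : ∀ k l, (‖(e k l * T - T * e k l) ξ‖ ^ 2 : ℝ)
        = (inner ℂ (((adjoint T * e k l - e k l * adjoint T) * (e k l * T - T * e k l)) ξ) ξ
            : ℂ).re := by
      intro k l
      have ha : adjoint (e k l * T - T * e k l) = adjoint T * e k l - e k l * adjoint T := by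
        rw [map_sub, show adjoint (e k l * T) = adjoint T * adjoint (e k l) from adjoint_comp _ _,
          show adjoint (T * e k l) = adjoint (e k l) * adjoint T from adjoint_comp _ _, hs]
      rw [← ha, ContinuousLinearMap.mul_apply, adjoint_inner_left, inner_self_eq_norm_sq_to_K]
      norm_cast
    simp only [h1, ← Complex.re_sum, ← sum_inner]
    have h2 : ∑ k, ∑ l, (((adjoint T * e k l - e k l * adjoint T) *
        (e k l * T - T * e k l)) ξ) = 0 := by
      have := congrArg (fun S : H →L[ℂ] H => S ξ) hsum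
      simpa [ContinuousLinearMap.sum_apply] using this
    rw [h2]
    simp
  have hz : e k l * T - T * e k l = 0 := by
    ext ξ
    have h1 := hpos ξ
    rw [Finset.sum_eq_zero_iff_of_nonneg fun k _ => Finset.sum_nonneg fun l _ => sq_nonneg _] at h1
    have h2 := h1 k (Finset.mem_univ _)
    rw [Finset.sum_eq_zero_iff_of_nonneg fun l _ => sq_nonneg _] at h2
    have h3 := h2 l (Finset.mem_univ _)
    exact norm_eq_zero.mp ((pow_eq_zero_iff two_ne_zero).mp h3)
  exact sub_eq_zero.mp hz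

/-- **Opposite pairs commute.** `β₁`, `β₂` are the calculi of two points `c₁ ≠ c₂` of the line with
calculus `lam`; `b` is the calculus of a point off the line. Input: the linear statements `hb₁`,
`hb₂`, and `hagr` (nowhere agree). -/
theorem opp {cx : Fin 3 → Fin 3 → C(X, ℂ)} {cy : Fin 3 → Fin 3 → C(Y, ℂ)} (hx : Crd cx)
    (hy : Crd cy) (β₁ β₂ b : C(X, ℂ) →⋆ₐ[ℂ] (H →L[ℂ] H)) (lam : C(Y, ℂ) →⋆ₐ[ℂ] (H →L[ℂ] H))
    (hc₁ : ∀ i j k l, β₁ (cx i j) * lam (cy k l) = lam (cy k l) * β₁ (cx i j))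
    (hc₂ : ∀ i j k l, β₂ (cx i j) * lam (cy k l) = lam (cy k l) * β₂ (cx i j))
    (hi₁ : ∀ i k, ∑ j, lam (cy i j) * β₁ (cx j k) = 0)
    (hi₂ : ∀ i k, ∑ j, lam (cy i j) * β₂ (cx j k) = 0)
    (hb₁ : ∀ F i k, ∑ j, β₁ (cx i j) * b F * lam (cy j k) = 0)
    (hb₂ : ∀ F i k, ∑ j, β₂ (cx i j) * b F * lam (cy j k) = 0)
    (hagr : ∀ R : H →L[ℂ] H, (∀ F, β₁ F * R = β₂ F * R) → R = 0)
    (F : C(X, ℂ)) (G : C(Y, ℂ)) : lam G * b F = b F * lam G := by
  obtain ⟨e, he⟩ : ∃ e : Fin 3 → Fin 3 → (H →L[ℂ] H), e = fun i j => lam (cy i j) := ⟨_, rfl⟩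
  obtain ⟨n₁, hn₁⟩ : ∃ e : Fin 3 → Fin 3 → (H →L[ℂ] H), e = fun i j => β₁ (cx i j) := ⟨_, rfl⟩
  obtain ⟨n₂, hn₂⟩ : ∃ e : Fin 3 → Fin 3 → (H →L[ℂ] H), e = fun i j => β₂ (cx i j) := ⟨_, rfl⟩
  have eR : Rk e := by rw [he]; exact hy.map lam
  have eS : ∀ i j, adjoint (e i j) = e i j := fun i j => by rw [he]; exact hy.adj lam i j
  have R₁ : Rk n₁ := by rw [hn₁]; exact hx.map β₁
  have R₂ : Rk n₂ := by rw [hn₂]; exact hx.map β₂
  have c₁ : ∀ i j k l, n₁ i j * e k l = e k l * n₁ i j := by rw [he, hn₁]; exact hc₁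
  have c₂ : ∀ i j k l, n₂ i j * e k l = e k l * n₂ i j := by rw [he, hn₂]; exact hc₂
  have i₁ : ∀ i k, ∑ j, e i j * n₁ j k = 0 := by rw [he, hn₁]; exact hi₁
  have i₂ : ∀ i k, ∑ j, e i j * n₂ j k = 0 := by rw [he, hn₂]; exact hi₂
  obtain ⟨M, hM⟩ : ∃ M : Submodule ℂ (H →L[ℂ] H), M = Sy n₁ e ⊓ Sy n₂ e := ⟨_, rfl⟩
  have hM₁ : M ≤ Sy n₁ e := by rw [hM]; exact inf_le_left
  have hM₂ : M ≤ Sy n₂ e := by rw [hM]; exact inf_le_right
  have hMP : ∀ T ∈ M, Ph e T ∈ M := fun T hT => by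
    rw [hM]
    exact ⟨Sy.ph eR c₁ (hM₁ hT), Sy.ph eR c₂ (hM₂ hT)⟩
  have hMW : ∀ T ∈ M, ∀ i j, W e i j T ∈ M := fun T hT i j => by
    rw [hM]
    exact ⟨Sy.w eR c₁ (hM₁ hT) i j, Sy.w eR c₂ (hM₂ hT) i j⟩
  have hbM : ∀ F, b F ∈ M := fun F => by
    rw [hM]
    refine ⟨fun s d => ?_, fun s d => ?_⟩
    · rw [he, hn₁]; exact hb₁ F s d
    · rw [he, hn₂]; exact hb₂ F s d
  -- agreement on the closed space
  have key : ∀ F, ∀ Z ∈ ZZ e M, β₁ F * Z = β₂ F * Z ∧ β₁ F * Z ∈ ZZ e M := by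
    intro F
    have hcl0 : IsClosed ((ZZ e M : Submodule ℂ (H →L[ℂ] H)) : Set (H →L[ℂ] H)) :=
      Submodule.isClosed_topologicalClosure _
    refine hx.gen.ind (P := fun F => ∀ Z ∈ ZZ e M, β₁ F * Z = β₂ F * Z ∧ β₁ F * Z ∈ ZZ e M)
      ?_ ?_ ?_ ?_ ?_ F
    · have : {F : C(X, ℂ) | ∀ Z ∈ ZZ e M, β₁ F * Z = β₂ F * Z ∧ β₁ F * Z ∈ ZZ e M} =
          ⋂ Z ∈ ZZ e M, ({F | β₁ F * Z = β₂ F * Z} ∩ {F | β₁ F * Z ∈ ZZ e M}) := by
        ext F
        simp only [Set.mem_setOf_eq, Set.mem_iInter, Set.mem_inter_iff]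
      rw [this]
      refine isClosed_biInter fun Z _ => IsClosed.inter ?_ ?_
      · exact isClosed_eq ((cont β₁).mul continuous_const) ((cont β₂).mul continuous_const)
      · exact hcl0.preimage ((cont β₁).mul continuous_const)
    · intro c Z hZ
      rw [AlgHomClass.commutes, AlgHomClass.commutes]
      refine ⟨rfl, ?_⟩
      rw [← Algebra.smul_def]
      exact Submodule.smul_mem _ _ hZ
    · intro i j Z hZ
      have h1 := agree eR R₁ R₂ i₁ i₂ c₁ c₂ M hM₁ hM₂ i j hZ
      have h2 := step eR eS R₁ i₁ c₁ M hMP hMW hM₁ i j hZ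
      rw [hn₁, hn₂] at h1
      rw [hn₁] at h2
      exact ⟨h1, h2⟩
    · intro F G hF hG Z hZ
      obtain ⟨a1, a2⟩ := hF Z hZ
      obtain ⟨b1, b2⟩ := hG Z hZ
      rw [map_add, map_add, add_mul, add_mul]
      exact ⟨by rw [a1, b1], Submodule.add_mem _ a2 b2⟩
    · intro F G hF hG Z hZ
      obtain ⟨b1, b2⟩ := hG Z hZ
      obtain ⟨a1, a2⟩ := hF _ b2
      rw [map_mul, map_mul, mul_assoc, mul_assoc]
      exact ⟨by rw [a1, b1], a2⟩
  have hzero : ∀ Z ∈ ZZ e M, Z = 0 := fun Z hZ => hagr Z fun F => (key F Z hZ).1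
  have hfix : ∀ T ∈ M, Ph e T = T := fun T hT => by
    have h1 : T - Ph e T ∈ ZZ e M := Submodule.le_topologicalClosure _ (mem_map hT)
    have h2 := hzero _ h1
    exact (sub_eq_zero.mp h2).symm
  refine hy.gen.comm lam (b F) (fun i j => ?_) G
  have h3 : adjoint (b F) = b (star F) := by rw [← star_eq_adjoint, map_star]
  have h4 := comm_of_fix eR eS (T := b F) (hfix _ (hbM F)) (by rw [h3]; exact hfix _ (hbM _))
    (by rw [h3, ← map_mul]; exact hfix _ (hbM _)) i j
  rw [he] at h4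
  exact h4

/-- **All commute.** `β` is the calculus of the point of intersection of the two lines with calculi
`lam₁`, `lam₂`; `x` commutes with `lam₁` and `lam₂`. -/
theorem all {cx : Fin 3 → Fin 3 → C(X, ℂ)} {cy : Fin 3 → Fin 3 → C(Y, ℂ)} (hx : Crd cx)
    (hy : Crd cy) (β : C(X, ℂ) →⋆ₐ[ℂ] (H →L[ℂ] H)) (lam₁ lam₂ : C(Y, ℂ) →⋆ₐ[ℂ] (H →L[ℂ] H))
    (hc₁ : ∀ F G, β F * lam₁ G = lam₁ G * β F)
    (hi₁ : ∀ i k, ∑ j, lam₁ (cy i j) * β (cx j k) = 0)
    (hi₂ : ∀ i k, ∑ j, β (cx i j) * lam₂ (cy j k) = 0)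
    (hagr : ∀ ζ : H, (∀ G, lam₁ G ζ = lam₂ G ζ) → ζ = 0)
    (x : H →L[ℂ] H) (hx₁ : ∀ G, x * lam₁ G = lam₁ G * x) (hx₂ : ∀ G, x * lam₂ G = lam₂ G * x)
    (F : C(X, ℂ)) : β F * x = x * β F := by
  obtain ⟨e, he⟩ : ∃ e : Fin 3 → Fin 3 → (H →L[ℂ] H), e = fun i j => lam₁ (cy i j) := ⟨_, rfl⟩
  obtain ⟨f, hf⟩ : ∃ e : Fin 3 → Fin 3 → (H →L[ℂ] H), e = fun i j => lam₂ (cy i j) := ⟨_, rfl⟩
  obtain ⟨n, hn⟩ : ∃ e : Fin 3 → Fin 3 → (H →L[ℂ] H), e = fun i j => β (cx i j) := ⟨_, rfl⟩
  have eR : Rk e := by rw [he]; exact hy.map lam₁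
  have fR : Rk f := by rw [hf]; exact hy.map lam₂
  have eS : ∀ i j, adjoint (e i j) = e i j := fun i j => by rw [he]; exact hy.adj lam₁ i j
  have fS : ∀ i j, adjoint (f i j) = f i j := fun i j => by rw [hf]; exact hy.adj lam₂ i j
  have nR : Rk n := by rw [hn]; exact hx.map β
  have c₁ : ∀ i j k l, n i j * e k l = e k l * n i j := by
    rw [he, hn]; exact fun i j k l => hc₁ _ _
  have i₁ : ∀ i k, ∑ j, e i j * n j k = 0 := by rw [he, hn]; exact hi₁
  have xe : ∀ i j, x * e i j = e i j * x := by rw [he]; exact fun i j => hx₁ _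
  have xf : ∀ i j, x * f i j = f i j * x := by rw [hf]; exact fun i j => hx₂ _
  -- the middle elements
  have hT : ∀ G G' s d, ∑ j, n s j * (lam₁ G * lam₂ G') * f j d = 0 := by
    intro G G' s d
    have h1 : ∀ j, n s j * (lam₁ G * lam₂ G') * f j d = lam₁ G * (n s j * f j d) * lam₂ G' := by
      intro j
      rw [hn, hf]
      have h2 : lam₂ G' * lam₂ (cy j d) = lam₂ (cy j d) * lam₂ G' := by
        rw [← map_mul, ← map_mul, mul_comm]
      calc β (cx s j) * (lam₁ G * lam₂ G') * lam₂ (cy j d)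
          = (β (cx s j) * lam₁ G) * (lam₂ G' * lam₂ (cy j d)) := by simp only [mul_assoc]
        _ = (lam₁ G * β (cx s j)) * (lam₂ (cy j d) * lam₂ G') := by rw [hc₁, h2]
        _ = _ := by simp only [mul_assoc]
    simp only [h1, ← Finset.sum_mul, ← Finset.mul_sum]
    have h3 : ∑ j, n s j * f j d = 0 := by rw [hn, hf]; exact hi₂ s d
    rw [h3, mul_zero, zero_mul]
  -- the commutator kills the ranges
  have hker : ∀ G G' i j, (x * n i j - n i j * x) *
      ((lam₁ G * lam₂ G') - Ph2 e f (lam₁ G * lam₂ G')) = 0 := by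
    intro G G' i j
    have h1 := mul_sub_Ph2 eR fR nR i₁ c₁ (lam₁ G * lam₂ G') (hT G G') i j
    have hm : x * (lam₁ G * lam₂ G') = (lam₁ G * lam₂ G') * x := by
      rw [← mul_assoc, hx₁, mul_assoc, hx₂, mul_assoc]
    have h2 : ∀ a b c d, x * (e a c * (lam₁ G * lam₂ G') * f b d) =
        (e a c * (lam₁ G * lam₂ G') * f b d) * x := by
      intro a b c d
      calc x * (e a c * (lam₁ G * lam₂ G') * f b d)
          = (x * e a c) * (lam₁ G * lam₂ G') * f b d := by simp only [mul_assoc]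
        _ = e a c * (x * (lam₁ G * lam₂ G')) * f b d := by rw [xe]; simp only [mul_assoc]
        _ = e a c * (lam₁ G * lam₂ G') * (x * f b d) := by rw [hm]; simp only [mul_assoc]
        _ = _ := by rw [xf]; simp only [mul_assoc]
    have h3 : x * W2 e f i j (lam₁ G * lam₂ G') = W2 e f i j (lam₁ G * lam₂ G') * x := by
      simp only [W2, Finset.mul_sum, Finset.sum_mul, mul_smul_comm, smul_mul_assoc, h2]
    have h4 : x * Ph2 e f (lam₁ G * lam₂ G') = Ph2 e f (lam₁ G * lam₂ G') * x := by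
      simp only [Ph2, Finset.mul_sum, Finset.sum_mul, h2]
    have h5 : x * ((lam₁ G * lam₂ G') - Ph2 e f (lam₁ G * lam₂ G')) =
        ((lam₁ G * lam₂ G') - Ph2 e f (lam₁ G * lam₂ G')) * x := by
      rw [mul_sub, sub_mul, hm, h4]
    rw [sub_mul, mul_assoc, mul_assoc, h1, h3, h5, ← mul_assoc, h1, sub_self]
  -- totality
  have htot : ∀ ζ : H, (∀ G G', adjoint ((lam₁ G * lam₂ G') - Ph2 e f (lam₁ G * lam₂ G')) ζ = 0) →
      ζ = 0 := by
    intro ζ hζ
    -- first consequence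
    have s1 : ∀ G, ∀ k l, f k l (lam₁ G ζ) = lam₁ (cy k l) (lam₁ G ζ) := by
      intro G
      obtain ⟨ξ, hξ⟩ : ∃ ξ, ξ = lam₁ G ζ := ⟨_, rfl⟩
      have h1 := hζ (star G) 1
      have h2 : adjoint ((lam₁ (star G) * lam₂ 1) - Ph2 e f (lam₁ (star G) * lam₂ 1)) =
          lam₁ G - ∑ k, ∑ l, f k l * (lam₁ G * e k l) := by
        have a1 : adjoint (lam₁ (star G)) = lam₁ G := by
          rw [← star_eq_adjoint, ← map_star, star_star]
        rw [map_one, mul_one, map_sub, a1]
        congr 1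
        simp only [Ph2, map_sum]
        refine Finset.sum_congr rfl fun k _ => Finset.sum_congr rfl fun l _ => ?_
        rw [show adjoint (e k l * lam₁ (star G) * f k l) =
            adjoint (f k l) * (adjoint (e k l * lam₁ (star G))) from adjoint_comp _ _,
          show adjoint (e k l * lam₁ (star G)) = adjoint (lam₁ (star G)) * adjoint (e k l) from
            adjoint_comp _ _, a1, eS, fS]
      rw [h2] at h1
      have h3 : ξ = ∑ k, ∑ l, f k l (e k l ξ) := by
        have h4 : ∀ k l, (f k l * (lam₁ G * e k l)) ζ = f k l (e k l ξ) := by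
          intro k l
          have h5 : lam₁ G * e k l = e k l * lam₁ G := by
            rw [he]
            change lam₁ G * lam₁ (cy k l) = lam₁ (cy k l) * lam₁ G
            rw [← map_mul, ← map_mul, mul_comm]
          rw [h5, hξ]
          rfl
        rw [ContinuousLinearMap.sub_apply, sub_eq_zero] at h1
        have h1' : ξ = (∑ k, ∑ l, f k l * (lam₁ G * e k l)) ζ := by rw [hξ]; exact h1
        rw [ContinuousLinearMap.sum_apply] at h1'
        refine h1'.trans ?_
        refine Finset.sum_congr rfl fun k _ => ?_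
        rw [ContinuousLinearMap.sum_apply]
        exact Finset.sum_congr rfl fun l _ => h4 k l
      have n1 := sum_norm_sq eR eS ξ
      have n2 := sum_norm_sq fR fS ξ
      have h6 : (‖ξ‖ ^ 2 : ℝ) = ∑ k, ∑ l, (inner ℂ (e k l ξ) (f k l ξ) : ℂ).re := by
        have h7 : (inner ℂ ξ ξ : ℂ) = ∑ k, ∑ l, inner ℂ (e k l ξ) (f k l ξ) := by
          conv_lhs => lhs; rw [h3]
          simp only [sum_inner]
          refine Finset.sum_congr rfl fun k _ => Finset.sum_congr rfl fun l _ => ?_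
          conv_lhs => rw [← fS k l]
          rw [adjoint_inner_left]
        have h8 := congrArg Complex.re h7
        rw [Complex.re_sum] at h8
        simp only [Complex.re_sum] at h8
        rw [← h8, inner_self_eq_norm_sq_to_K]
        norm_cast
      have h9 : ∑ k, ∑ l, ‖f k l ξ - e k l ξ‖ ^ 2 = 0 := by
        have h10 : ∀ k l, ‖f k l ξ - e k l ξ‖ ^ 2 =
            ‖f k l ξ‖ ^ 2 - 2 * (inner ℂ (e k l ξ) (f k l ξ) : ℂ).re + ‖e k l ξ‖ ^ 2 := by
          intro k l
          have := norm_sub_sq (𝕜 := ℂ) (f k l ξ) (e k l ξ)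
          rw [this]
          congr 2
          rw [← inner_conj_symm]
          change 2 * (starRingEnd ℂ (inner ℂ (e k l ξ) (f k l ξ))).re = _
          rw [Complex.conj_re]
        simp only [h10, Finset.sum_add_distrib, Finset.sum_sub_distrib, ← Finset.mul_sum]
        rw [n1, n2, ← h6]
        ring
      intro k l
      rw [Finset.sum_eq_zero_iff_of_nonneg fun k _ => Finset.sum_nonneg fun l _ => sq_nonneg _]
        at h9
      have h11 := h9 k (Finset.mem_univ _)
      rw [Finset.sum_eq_zero_iff_of_nonneg fun l _ => sq_nonneg _] at h11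
      have h12 := norm_eq_zero.mp ((pow_eq_zero_iff two_ne_zero).mp (h11 l (Finset.mem_univ _)))
      rw [sub_eq_zero, he] at h12
      rw [← hξ]
      exact h12
    -- induction
    have s2 : ∀ F G, lam₂ F (lam₁ G ζ) = lam₁ F (lam₁ G ζ) := by
      intro F
      refine hy.gen.ind (P := fun F => ∀ G, lam₂ F (lam₁ G ζ) = lam₁ F (lam₁ G ζ)) ?_ ?_ ?_ ?_ ?_ F
      · have : {F : C(Y, ℂ) | ∀ G, lam₂ F (lam₁ G ζ) = lam₁ F (lam₁ G ζ)} =
            ⋂ G, {F | lam₂ F (lam₁ G ζ) = lam₁ F (lam₁ G ζ)} := by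
          ext F
          simp only [Set.mem_setOf_eq, Set.mem_iInter]
        rw [this]
        exact isClosed_iInter fun G => isClosed_eq ((cont lam₂).clm_apply continuous_const)
          ((cont lam₁).clm_apply continuous_const)
      · intro c G
        rw [AlgHomClass.commutes, AlgHomClass.commutes]
      · intro k l G
        have := s1 G k l
        rw [hf] at this
        exact this
      · intro F F' hF hF' G
        rw [map_add, map_add, ContinuousLinearMap.add_apply, ContinuousLinearMap.add_apply,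
          hF, hF']
      · intro F F' hF hF' G
        have a1 : lam₁ F' (lam₁ G ζ) = lam₁ (F' * G) ζ := by rw [map_mul]; rfl
        rw [map_mul, map_mul, ContinuousLinearMap.mul_apply, ContinuousLinearMap.mul_apply,
          hF', a1, hF]
    refine hagr ζ fun G => ?_
    have := s2 G 1
    rw [map_one] at this
    exact this.symm
  have hcomm : ∀ i j, x * n i j - n i j * x = 0 := by
    intro i j
    have h1 : adjoint (x * n i j - n i j * x) = 0 := by
      ext ζ
      rw [ContinuousLinearMap.zero_apply]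
      refine htot _ fun G G' => ?_
      have h2 := congrArg adjoint (hker G G' i j)
      rw [map_zero, show adjoint ((x * n i j - n i j * x) *
          ((lam₁ G * lam₂ G') - Ph2 e f (lam₁ G * lam₂ G'))) =
          adjoint ((lam₁ G * lam₂ G') - Ph2 e f (lam₁ G * lam₂ G')) *
          adjoint (x * n i j - n i j * x) from adjoint_comp _ _] at h2
      have h3 := congrArg (fun S : H →L[ℂ] H => S ζ) h2
      exact h3
    have h2 := congrArg adjoint h1
    rwa [adjoint_adjoint, map_zero] at h2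
  refine hx.gen.comm β x (fun i j => ?_) F
  have := hcomm i j
  rw [hn] at this
  exact (sub_eq_zero.mp this).symm

end Calc

end Vale.Agent.P092.H179
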